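import Vale.Agent.P204.H298.Main

open Vale.Agent.P204

/-- (1) Donaldson's question has a positive answer.  (2) An almost complex structure on a closed
connected four-manifold is compatible with a symplectic form if and only if zero is the only
positive current which vanishes on the closed two-forms.  (3) If a finite group acts by
holomorphic and antiholomorphic diffeomorphisms for a tamed almost complex structure, then the
compatible symplectic form can be chosen equivariant. -/
theorem Vale.Agent.Results.P204.IntrinsicEquivariant.result.{u, w} :
    DC.Donaldson.{u} ∧ DC.CurrentCriterion.{u} ∧ DC.EquivariantDonaldson.{u, w} := by
  have h := DC.main GX.sysStatementB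
  exact ⟨h, H298.criterion h, H298.equivariant h⟩
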