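import Vale.Agent.P204.KCur.Crit
import Vale.Agent.P204.KCur.Univ
import Vale.Agent.P204.KCur.Bridge

open Vale.Agent.P204

/-- (1) Donaldson's question has a positive answer.  (2) For an arbitrary smooth almost complex
structure `J` on a closed four-manifold the following are equivalent: `J` is compatible with a
symplectic form; `J` is tamed by a symplectic form; `J` has a Kähler current. -/
theorem Vale.Agent.Results.P204.KaehlerCurrent.result.{u} :
    DC.Donaldson.{u} ∧ KCur.KaehlerCriterion.{u} := by
  have h := KCur.kaehlerCriterion_univ.{u} KCur.kaehlerCriterion_zero
  exact ⟨KCur.donaldson_of_criterion h, KCur.criterion_of_lin h⟩
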