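import Vale.Agent.P204.CV.ClsMain
open Vale.Agent.P204

/-- (1) Donaldson's question has a positive answer.  (2) If the almost complex structure `J` on a
closed connected four-manifold is tamed by the symplectic form `om` and `b₂⁺ ≤ 1`, then a
symplectic form in the cohomology class of `om` is compatible with `J`. -/
theorem Vale.Agent.Results.P204.SameClass.result.{u} :
    DC.Donaldson.{u} ∧ Cls.SameClass.{u} :=
  ⟨DC.main GX.sysStatementB, Cls.sameClass⟩
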